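import Vale.Agent.P046.Lower.Surv
import Mathlib.Combinatorics.Hall.Basic

/-!
Killer triangles exist when, in every triangle through the edge, the two other codegrees sum to
at least the codegree of the edge plus two.
-/

namespace Vale.Agent.P046

open Finset
open scoped Classical

variable {n : ℕ} {G : Finset (Sym2 (Fin n))}

/-- Common neighbours. -/
noncomputable def cnb (G : Finset (Sym2 (Fin n))) (a b : Fin n) : Finset (Fin n) :=
  univ.filter fun w => s(a, w) ∈ G ∧ s(b, w) ∈ G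

lemma mem_cnb {a b w : Fin n} : w ∈ cnb G a b ↔ s(a, w) ∈ G ∧ s(b, w) ∈ G := by
  simp [cnb]

lemma mem_edgesOf {T : Finset (Fin n)} {a b : Fin n} :
    s(a, b) ∈ edgesOf T ↔ a ∈ T ∧ b ∈ T ∧ a ≠ b := by
  simp [edgesOf, Finset.mem_sym2_iff, and_assoc]

lemma ne_of_adj (hG : G ⊆ completeEdges n) {a b : Fin n} (h : s(a, b) ∈ G) : a ≠ b := by
  have := hG h
  simpa [completeEdges] using this

lemma tri_of_adj (hG : G ⊆ completeEdges n) {a b c : Fin n} (h1 : s(a, b) ∈ G)
    (h2 : s(a, c) ∈ G) (h3 : s(b, c) ∈ G) : ({a, b, c} : Finset (Fin n)) ∈ triangles G := by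
  have e1 := ne_of_adj hG h1
  have e2 := ne_of_adj hG h2
  have e3 := ne_of_adj hG h3
  refine mem_tri.2 ⟨card_eq_three.2 ⟨a, b, c, e1, e2, e3, rfl⟩, fun f hf => ?_⟩
  induction f using Sym2.ind with
  | _ x y =>
    obtain ⟨hx, hy, hxy⟩ := mem_edgesOf.1 hf
    simp only [mem_insert, mem_singleton] at hx hy
    rcases hx with rfl | rfl | rfl <;> rcases hy with rfl | rfl | rfl <;>
      first
      | exact absurd rfl hxy
      | assumption
      | (rw [Sym2.eq_swap]; assumption)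

lemma adj_of_tri {T : Finset (Fin n)} (hT : T ∈ triangles G) {a b : Fin n} (ha : a ∈ T)
    (hb : b ∈ T) (hab : a ≠ b) : s(a, b) ∈ G :=
  (mem_tri.1 hT).2 (mem_edgesOf.2 ⟨ha, hb, hab⟩)

lemma third {T : Finset (Fin n)} (hT : T ∈ triangles G) {a b : Fin n} (h : s(a, b) ∈ edgesOf T) :
    ∃ w, w ∈ cnb G a b ∧ T = {a, b, w} := by
  obtain ⟨ha, hb, hab⟩ := mem_edgesOf.1 h
  have hc := (mem_tri.1 hT).1
  obtain ⟨w, hw⟩ : ((T.erase a).erase b).Nonempty := by
    rw [← card_pos, card_erase_of_mem (mem_erase.2 ⟨hab.symm, hb⟩), card_erase_of_mem ha, hc]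
    omega
  obtain ⟨hwb, hwa, hwT⟩ : w ≠ b ∧ w ≠ a ∧ w ∈ T := by simpa using hw
  refine ⟨w, mem_cnb.2 ⟨adj_of_tri hT ha hwT (Ne.symm hwa), adj_of_tri hT hb hwT (Ne.symm hwb)⟩,
    (eq_of_subset_of_card_le ?_ ?_).symm⟩
  · simp [insert_subset_iff, ha, hb, hwT]
  · rw [hc, card_eq_three.2 ⟨a, b, w, hab, Ne.symm hwa, Ne.symm hwb, rfl⟩]

lemma tdeg_eq (hG : G ⊆ completeEdges n) {a b : Fin n} (h : s(a, b) ∈ G) :
    tdeg G s(a, b) = (cnb G a b).card := by
  refine (card_bij (fun w _ => ({a, b, w} : Finset (Fin n))) ?_ ?_ ?_).symm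
  · intro w hw
    obtain ⟨h1, h2⟩ := mem_cnb.1 hw
    exact mem_filter.2 ⟨tri_of_adj hG h h1 h2, mem_edgesOf.2 ⟨by simp, by simp, ne_of_adj hG h⟩⟩
  · intro w hw w' hw' he
    have : w ∈ ({a, b, w'} : Finset (Fin n)) := by rw [← he]; simp
    obtain ⟨h1, h2⟩ := mem_cnb.1 hw
    have e1 := ne_of_adj hG h1
    have e2 := ne_of_adj hG h2
    simp only [mem_insert, mem_singleton] at this
    rcases this with h' | h' | h'
    · exact absurd h'.symm e1
    · exact absurd h'.symm e2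
    · exact h'
  · intro T hT
    obtain ⟨hT1, hT2⟩ := mem_filter.1 hT
    obtain ⟨w, hw, rfl⟩ := third hT1 hT2
    exact ⟨w, hw, rfl⟩

lemma disj_edges {r s : Finset (Fin n)} (z : Fin n) (h : ∀ x, x ∈ r → x ∈ s → x = z) :
    Disjoint (edgesOf r) (edgesOf s) := by
  rw [disjoint_left]
  intro f hf hf'
  induction f using Sym2.ind with
  | _ x y =>
    obtain ⟨hx, hy, hxy⟩ := mem_edgesOf.1 hf
    obtain ⟨hx', hy', -⟩ := mem_edgesOf.1 hf'
    exact hxy ((h x hx hx').trans (h y hy hy').symm)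

/-- The number of killers needed. -/
def killBound (L : ℕ) : ℕ := 2 ^ L + L

/-- Killers exist. -/
theorem exists_killers (hG : G ⊆ completeEdges n) {u v : Fin n} (he : s(u, v) ∈ G)
    (hgood : ∀ w ∈ cnb G u v, (cnb G u v).card + 2 ≤ (cnb G u w).card + (cnb G v w).card)
    {L : ℕ} (hL : (cnb G u v).card ≤ L) :
    ∃ R, Killers G s(u, v) R ∧ R.card ≤ killBound L ∧
      ∀ r ∈ R, ∃ w ∈ cnb G u v, s(u, w) ∈ edgesOf r ∨ s(v, w) ∈ edgesOf r := by
  set N := cnb G u v with hN
  have huv := ne_of_adj hG he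
  have hNu : ∀ w ∈ N, w ≠ u ∧ w ≠ v := fun w hw =>
    ⟨(ne_of_adj hG (mem_cnb.1 hw).1).symm, (ne_of_adj hG (mem_cnb.1 hw).2).symm⟩
  -- a maximum matching inside the common neighbourhood, through `u`
  set C := (triangles G).filter fun T => u ∈ T ∧ T.erase u ⊆ N with hC
  set fam := C.powerset.filter fun P =>
    ∀ r ∈ P, ∀ s ∈ P, r ≠ s → Disjoint (edgesOf r) (edgesOf s) with hfam
  obtain ⟨R₁, hR₁, hmax⟩ := exists_max_image fam Finset.card ⟨∅, by simp [hfam]⟩
  obtain ⟨hR₁C, hR₁d⟩ := mem_filter.1 hR₁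
  rw [mem_powerset] at hR₁C
  set M := R₁.biUnion fun r => r.erase u with hM
  have hMN : M ⊆ N := biUnion_subset.2 fun r hr => (mem_filter.1 (hR₁C hr)).2.2
  set U := N \ M with hU
  have hr1 : ∀ r ∈ R₁, ∀ x ∈ r, x = u ∨ x ∈ M := fun r hr x hx => by
    by_cases h : x = u
    · exact Or.inl h
    · exact Or.inr (mem_biUnion.2 ⟨r, hr, mem_erase.2 ⟨h, hx⟩⟩)
  have hind : ∀ w ∈ U, ∀ w' ∈ U, s(w, w') ∉ G := by
    intro w hw w' hw' hadj
    obtain ⟨hwN, hwM⟩ := mem_sdiff.1 hw
    obtain ⟨hw'N, hw'M⟩ := mem_sdiff.1 hw'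
    have hT := tri_of_adj hG (mem_cnb.1 hwN).1 (mem_cnb.1 hw'N).1 hadj
    have hnot : ({u, w, w'} : Finset (Fin n)) ∉ R₁ := by
      intro h
      rcases hr1 _ h w (by simp) with h' | h'
      · exact (hNu w hwN).1 h'
      · exact hwM h'
    have hmem : insert ({u, w, w'} : Finset (Fin n)) R₁ ∈ fam := by
      refine mem_filter.2 ⟨mem_powerset.2 (insert_subset ?_ hR₁C), ?_⟩
      · refine mem_filter.2 ⟨hT, by simp, fun x hx => ?_⟩
        obtain ⟨hxu, hx⟩ := mem_erase.1 hx
        simp only [mem_insert, mem_singleton] at hx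
        rcases hx with rfl | rfl | rfl
        exacts [absurd rfl hxu, hwN, hw'N]
      · have hd : ∀ r ∈ R₁, Disjoint (edgesOf ({u, w, w'} : Finset (Fin n))) (edgesOf r) := by
          intro r hr
          refine disj_edges u fun x hx hx' => ?_
          simp only [mem_insert, mem_singleton] at hx
          rcases hr1 r hr x hx' with h' | h'
          · exact h'
          · rcases hx with rfl | rfl | rfl
            exacts [rfl, absurd h' hwM, absurd h' hw'M]
        intro r hr s hs hrs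
        rcases mem_insert.1 hr with rfl | hr' <;> rcases mem_insert.1 hs with rfl | hs'
        exacts [absurd rfl hrs, hd s hs', (hd r hr').symm, hR₁d r hr' s hs' hrs]
    have := hmax _ hmem
    rw [card_insert_of_notMem hnot] at this
    omega
  -- one further killer for each uncovered vertex
  set av : Fin n → Finset (Bool × Fin n) := fun w =>
    (((cnb G u w).erase v) \ M).image (fun x => (true, x)) ∪
      ((cnb G v w).erase u).image (fun x => (false, x)) with hav
  have havail : ∀ w ∈ U, U.card ≤ (av w).card := by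
    intro w hw
    have hwN := (mem_sdiff.1 hw).1
    rw [hav, card_union_of_disjoint, card_image_of_injective _ (fun a b h => (Prod.ext_iff.1 h).2),
      card_image_of_injective _ (fun a b h => (Prod.ext_iff.1 h).2)]
    · have h1 := le_card_sdiff M ((cnb G u w).erase v)
      have h2 := pred_card_le_card_erase (s := cnb G u w) (a := v)
      have h3 := pred_card_le_card_erase (s := cnb G v w) (a := u)
      have h4 := card_sdiff_add_card_eq_card hMN
      have h5 := hgood w hwN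
      rw [hU]
      omega
    · rw [disjoint_left]
      simp
  obtain ⟨f, hf, hfm⟩ := (all_card_le_biUnion_card_iff_exists_injective
      (fun w : {w // w ∈ U} => av w.1)).1 (by
    intro s
    rcases s.eq_empty_or_nonempty with rfl | ⟨w, hw⟩
    · simp
    · calc s.card ≤ U.card := by
            have := card_le_univ s
            rwa [Fintype.card_coe] at this
        _ ≤ (av w.1).card := havail _ w.2
        _ ≤ _ := card_le_card (subset_biUnion_of_mem (fun w : {w // w ∈ U} => av w.1) hw))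
  set kill : {w // w ∈ U} → Finset (Fin n) := fun w =>
    {if (f w).1 then u else v, w.1, (f w).2} with hkill
  have hfs : ∀ w, ((f w).1 = true ∧ (f w).2 ∈ cnb G u w.1 ∧ (f w).2 ≠ v ∧ (f w).2 ∉ M) ∨
      ((f w).1 = false ∧ (f w).2 ∈ cnb G v w.1 ∧ (f w).2 ≠ u) := by
    intro w
    have := hfm w
    simp only [hav, mem_union, mem_image, mem_sdiff, mem_erase] at this
    rcases this with ⟨x, ⟨⟨h1, h2⟩, h3⟩, hx⟩ | ⟨x, ⟨h1, h2⟩, hx⟩
    · exact Or.inl ⟨by rw [← hx], by rw [← hx]; exact h2, by rw [← hx]; exact h1,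
        by rw [← hx]; exact h3⟩
    · exact Or.inr ⟨by rw [← hx], by rw [← hx]; exact h2, by rw [← hx]; exact h1⟩
  have hwU : ∀ w : {w // w ∈ U}, w.1 ∈ N ∧ w.1 ∉ M := fun w => mem_sdiff.1 w.2
  have hxU : ∀ w : {w // w ∈ U}, (f w).2 ∉ U := by
    intro w hx
    rcases hfs w with ⟨-, h, -⟩ | ⟨-, h, -⟩
    all_goals exact hind _ w.2 _ hx (mem_cnb.1 h).2
  have hktri : ∀ w, kill w ∈ triangles G := by
    intro w
    obtain ⟨hu, hv⟩ := mem_cnb.1 (hwU w).1
    rcases hfs w with ⟨hb, h, -⟩ | ⟨hb, h, -⟩ <;> obtain ⟨h1, h2⟩ := mem_cnb.1 h <;>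
      simp only [hkill, hb]
    · exact tri_of_adj hG hu h1 h2
    · exact tri_of_adj hG hv h1 h2
  have hMv : v ∉ M := fun h => (hNu v (hMN h)).2 rfl
  have hkavoid : ∀ w, ¬(u ∈ kill w ∧ v ∈ kill w) := by
    intro w
    obtain ⟨h1, h2⟩ := hNu w.1 (hwU w).1
    rintro ⟨hu', hv'⟩
    simp only [hkill, mem_insert, mem_singleton] at hu' hv'
    rcases hfs w with ⟨hb, -, hxv, -⟩ | ⟨hb, -, hxu⟩
    · simp only [hb, if_true] at hv'
      rcases hv' with h | h | h
      exacts [huv h.symm, h2 h.symm, hxv h.symm]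
    · simp only [hb, Bool.false_eq_true, if_false] at hu'
      rcases hu' with h | h | h
      exacts [huv h, h1 h.symm, hxu h.symm]
  have hk1 : ∀ r ∈ R₁, ∀ w, Disjoint (edgesOf r) (edgesOf (kill w)) := by
    intro r hr w
    obtain ⟨hwN, hwM⟩ := hwU w
    obtain ⟨h1, h2⟩ := hNu w.1 hwN
    rcases hfs w with ⟨hb, -, -, hxM⟩ | ⟨hb, -, hxu⟩
    · refine disj_edges u fun x hx hx' => ?_
      simp only [hkill, hb, mem_insert, mem_singleton, if_true] at hx'
      rcases hr1 r hr x hx with h | h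
      · exact h
      · rcases hx' with rfl | rfl | rfl
        exacts [rfl, absurd h hwM, absurd h hxM]
    · refine disj_edges (f w).2 fun x hx hx' => ?_
      simp only [hkill, hb, mem_insert, mem_singleton] at hx'
      rcases hr1 r hr x hx with rfl | h
      · rcases hx' with h' | h' | h'
        · simp at h'; exact absurd h' huv
        · exact absurd h' (Ne.symm h1)
        · exact h'
      · rcases hx' with h' | h' | h'
        · simp at h'; exact absurd (h' ▸ h) hMv
        · exact absurd (h' ▸ h) hwM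
        · exact h'
  have hk2 : ∀ w w', w ≠ w' → Disjoint (edgesOf (kill w)) (edgesOf (kill w')) := by
    intro w w' hne
    have hne' : w.1 ≠ w'.1 := fun h => hne (Subtype.ext h)
    obtain ⟨h1, h2⟩ := hNu w.1 (hwU w).1
    obtain ⟨h1', h2'⟩ := hNu w'.1 (hwU w').1
    have hx := hxU w
    have hx' := hxU w'
    have hfne : f w ≠ f w' := fun h => hne (hf h)
    have hxw : (f w).2 ≠ w'.1 := fun h => hx (h ▸ w'.2)
    have hxw' : (f w').2 ≠ w.1 := fun h => hx' (h ▸ w.2)
    rcases hfs w with ⟨hb, -, hxv, -⟩ | ⟨hb, -, hxu⟩ <;>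
      rcases hfs w' with ⟨hb', -, hxv', -⟩ | ⟨hb', -, hxu'⟩
    · refine disj_edges u fun x ha hb2 => ?_
      have hxx : (f w).2 ≠ (f w').2 := fun h => hfne (Prod.ext (hb.trans hb'.symm) h)
      simp [hkill, hb, hb'] at ha hb2
      grind
    · refine disj_edges (f w).2 fun x ha hb2 => ?_
      simp [hkill, hb, hb'] at ha hb2
      grind
    · refine disj_edges (f w).2 fun x ha hb2 => ?_
      simp [hkill, hb, hb'] at ha hb2
      grind
    · refine disj_edges v fun x ha hb2 => ?_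
      have hxx : (f w).2 ≠ (f w').2 := fun h => hfne (Prod.ext (hb.trans hb'.symm) h)
      simp [hkill, hb, hb'] at ha hb2
      grind
  refine ⟨R₁ ∪ univ.image kill, ⟨he, ?_, ?_, ?_, ?_⟩, ?_, ?_⟩
  · exact union_subset (hR₁C.trans (filter_subset _ _))
      (image_subset_iff.2 fun w _ => hktri w)
  · intro r hr h
    obtain ⟨hu, hv, -⟩ := mem_edgesOf.1 h
    rcases mem_union.1 hr with hr | hr
    · rcases hr1 r hr v hv with h' | h'
      exacts [huv h'.symm, hMv h']
    · obtain ⟨w, -, rfl⟩ := mem_image.1 hr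
      exact hkavoid w ⟨hu, hv⟩
  · intro r hr s hs hrs
    rcases mem_union.1 hr with hr | hr <;> rcases mem_union.1 hs with hs | hs
    · exact hR₁d r hr s hs hrs
    · obtain ⟨w, -, rfl⟩ := mem_image.1 hs
      exact hk1 r hr w
    · obtain ⟨w, -, rfl⟩ := mem_image.1 hr
      exact (hk1 s hs w).symm
    · obtain ⟨w, -, rfl⟩ := mem_image.1 hr
      obtain ⟨w', -, rfl⟩ := mem_image.1 hs
      exact hk2 w w' fun h => hrs (h ▸ rfl)
  · intro T hT hTe
    obtain ⟨w, hw, rfl⟩ := third hT hTe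
    obtain ⟨h1, h2⟩ := hNu w hw
    by_cases hwM : w ∈ M
    · obtain ⟨r, hr, hwr⟩ := mem_biUnion.1 hwM
      refine ⟨r, mem_union_left _ hr, not_disjoint_iff.2 ⟨s(u, w), ?_, ?_⟩⟩
      · exact mem_edgesOf.2 ⟨by simp, by simp, Ne.symm h1⟩
      · exact mem_edgesOf.2 ⟨(mem_filter.1 (hR₁C hr)).2.1, (mem_erase.1 hwr).2, Ne.symm h1⟩
    · set ww : {w // w ∈ U} := ⟨w, mem_sdiff.2 ⟨hw, hwM⟩⟩ with hww
      refine ⟨kill ww, mem_union_right _ (mem_image_of_mem _ (mem_univ _)),
        not_disjoint_iff.2 ⟨s(if (f ww).1 then u else v, w), ?_, ?_⟩⟩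
      · cases (f ww).1 <;> simp [mem_edgesOf, Ne.symm h1, Ne.symm h2]
      · refine mem_edgesOf.2 ⟨by simp [hkill], by simp [hkill, hww], ?_⟩
        cases (f ww).1 <;> simp [Ne.symm h1, Ne.symm h2]
  · refine (card_union_le _ _).trans (Nat.add_le_add ?_ ?_)
    · refine ((card_le_card (t := N.powerset.image (insert u)) fun r hr => ?_).trans
        card_image_le).trans ?_
      · exact mem_image.2 ⟨r.erase u, mem_powerset.2 (mem_filter.1 (hR₁C hr)).2.2,
          insert_erase (mem_filter.1 (hR₁C hr)).2.1⟩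
      · rw [card_powerset]; exact Nat.pow_le_pow_right (by norm_num) hL
    · refine card_image_le.trans ?_
      rw [card_univ, Fintype.card_coe]
      exact (card_le_card sdiff_subset).trans hL
  · intro r hr
    rcases mem_union.1 hr with hr | hr
    · obtain ⟨hrt, hu, hsub⟩ := mem_filter.1 (hR₁C hr)
      obtain ⟨w, hw⟩ : (r.erase u).Nonempty := by
        rw [← card_pos, card_erase_of_mem hu, (mem_tri.1 hrt).1]
        omega
      exact ⟨w, hsub hw, Or.inl (mem_edgesOf.2 ⟨hu, (mem_erase.1 hw).2, (mem_erase.1 hw).1.symm⟩)⟩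
    · obtain ⟨w, -, rfl⟩ := mem_image.1 hr
      obtain ⟨h1, h2⟩ := hNu w.1 (hwU w).1
      refine ⟨w.1, (hwU w).1, ?_⟩
      rcases hfs w with ⟨hb, -⟩ | ⟨hb, -⟩
      · exact Or.inl (mem_edgesOf.2 ⟨by simp [hkill, hb], by simp [hkill], Ne.symm h1⟩)
      · exact Or.inr (mem_edgesOf.2 ⟨by simp [hkill, hb], by simp [hkill], Ne.symm h2⟩)

end Vale.Agent.P046
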