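import Vale.Agent.P046.Lower.Killers

/-!
A graph with many triangles per edge and bounded mean squared codegree keeps a positive fraction
of its edges in random triangle removal.
-/

namespace Vale.Agent.P046

open Finset
open scoped Classical

variable {n : ℕ} (G : Finset (Sym2 (Fin n)))

/-- The edges sharing a triangle with a set, together with the set. -/
noncomputable def touch (B : Finset (Sym2 (Fin n))) : Finset (Sym2 (Fin n)) :=
  B ∪ B.biUnion fun f => ((triangles G).filter fun T => f ∈ edgesOf T).biUnion edgesOf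

/-- The edges within `j` triangle steps of an edge of codegree above `L`. -/
noncomputable def bad (L : ℕ) : ℕ → Finset (Sym2 (Fin n))
  | 0 => G.filter fun e => L < tdeg G e
  | (j + 1) => touch G (bad L j)

/-- In every triangle through the edge, the other two codegrees exceed its own by two. -/
def Good (e : Sym2 (Fin n)) : Prop :=
  ∀ T ∈ triangles G, e ∈ edgesOf T → 2 * tdeg G e + 2 ≤ ∑ f ∈ edgesOf T, tdeg G f

variable {G}

lemma edgesOf_triple {a b c : Fin n} (hab : a ≠ b) (hac : a ≠ c) (hbc : b ≠ c) :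
    edgesOf ({a, b, c} : Finset (Fin n)) = {s(a, b), s(a, c), s(b, c)} := by
  ext f
  induction f using Sym2.ind with
  | _ x y => simp [mem_edgesOf]; grind

lemma card_edgesOf {T : Finset (Fin n)} (hT : T ∈ triangles G) : (edgesOf T).card = 3 := by
  obtain ⟨a, b, c, hab, hac, hbc, rfl⟩ := card_eq_three.1 (mem_tri.1 hT).1
  rw [edgesOf_triple hab hac hbc, card_eq_three]
  exact ⟨_, _, _, by simp; grind, by simp; grind, by simp; grind, rfl⟩

lemma sum_tdeg : ∑ e ∈ G, tdeg G e = 3 * (triangles G).card := by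
  simp only [tdeg, card_filter]
  rw [sum_comm, card_eq_sum_ones (triangles G), mul_sum]
  refine sum_congr rfl fun T hT => ?_
  rw [← card_filter, mul_one]
  convert card_edgesOf hT using 2
  ext f
  simp only [mem_filter]
  exact ⟨fun h => h.2, fun h => ⟨(mem_tri.1 hT).2 h, h⟩⟩

lemma one_le_tdeg {T : Finset (Fin n)} (hT : T ∈ triangles G) {e : Sym2 (Fin n)}
    (he : e ∈ edgesOf T) : 1 ≤ tdeg G e :=
  Finset.card_pos.2 ⟨T, mem_filter.2 ⟨hT, he⟩⟩

lemma mem_touch {B : Finset (Sym2 (Fin n))} {T : Finset (Fin n)} (hT : T ∈ triangles G)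
    {e f : Sym2 (Fin n)} (he : e ∈ edgesOf T) (hf : f ∈ edgesOf T) (hB : f ∈ B) :
    e ∈ touch G B :=
  mem_union_right _ (mem_biUnion.2 ⟨f, hB, mem_biUnion.2 ⟨T, mem_filter.2 ⟨hT, hf⟩, he⟩⟩)

lemma not_bad_of {L j : ℕ} {T : Finset (Fin n)} (hT : T ∈ triangles G) {e f : Sym2 (Fin n)}
    (he : e ∈ edgesOf T) (hf : f ∈ edgesOf T) (h : e ∉ bad G L (j + 1)) : f ∉ bad G L j :=
  fun hB => h (mem_touch hT he hf hB)

lemma bad_mono (L : ℕ) {i j : ℕ} (h : i ≤ j) : bad G L i ⊆ bad G L j := by
  induction j, h using Nat.le_induction with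
  | base => exact subset_rfl
  | succ j _ ih => exact ih.trans subset_union_left

lemma card_partners (B : Finset (Sym2 (Fin n))) :
    (B.biUnion fun f => ((triangles G).filter fun T => f ∈ edgesOf T).biUnion edgesOf).card
      ≤ 3 * ∑ f ∈ B, tdeg G f := by
  refine card_biUnion_le.trans ?_
  rw [mul_sum]
  refine sum_le_sum fun f _ => card_biUnion_le.trans ?_
  rw [sum_congr rfl fun T hT => card_edgesOf (mem_filter.1 hT).1, sum_const, smul_eq_mul,
    mul_comm, tdeg]

lemma card_touch (B : Finset (Sym2 (Fin n))) :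
    (touch G B).card ≤ B.card + 3 * ∑ f ∈ B, tdeg G f :=
  (card_union_le _ _).trans (Nat.add_le_add_left (card_partners B) _)

lemma bad_subset (L : ℕ) : ∀ j, bad G L j ⊆ G
  | 0 => filter_subset _ _
  | (j + 1) => by
    refine union_subset (bad_subset L j) (biUnion_subset.2 fun f _ => biUnion_subset.2 ?_)
    exact fun T hT => (mem_tri.1 (mem_filter.1 hT).1).2

variable (n)

/-- The hypothesis on the second moment of the codegrees. -/
def SqBound (K : ℝ) (G : Finset (Sym2 (Fin n))) : Prop :=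
  ∑ e ∈ G, (tdeg G e : ℝ) ^ 2 ≤ K * G.card

variable {n}

lemma sum_le_sq {K : ℝ} (hQ : SqBound n K G) {B : Finset (Sym2 (Fin n))} (hB : B ⊆ G) {t : ℝ}
    (ht : 0 < t) : ∑ f ∈ B, (tdeg G f : ℝ) ≤ K * G.card / t + t * B.card := by
  have h1 : ∀ f ∈ B, (tdeg G f : ℝ) ≤ (tdeg G f : ℝ) ^ 2 / t + t := by
    intro f _
    rw [← sub_nonneg]
    have h : 0 ≤ ((tdeg G f : ℝ) - t) ^ 2 + (tdeg G f : ℝ) * t := by positivity
    have : (tdeg G f : ℝ) ^ 2 / t + t - tdeg G f
        = (((tdeg G f : ℝ) - t) ^ 2 + (tdeg G f : ℝ) * t) / t := by field_simp; ring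
    rw [this]
    positivity
  refine (sum_le_sum h1).trans ?_
  rw [sum_add_distrib, ← sum_div, sum_const, nsmul_eq_mul, mul_comm (B.card : ℝ)]
  refine add_le_add (div_le_div_of_nonneg_right ?_ ht.le) le_rfl
  exact (sum_le_sum_of_subset_of_nonneg hB fun f _ _ => sq_nonneg _).trans hQ

lemma card_heavy {K : ℝ} (hQ : SqBound n K G) (L : ℕ) :
    ((G.filter fun e => L < tdeg G e).card : ℝ) * (L : ℝ) ^ 2 ≤ K * G.card := by
  refine le_trans ?_ hQ
  refine le_trans ?_ (sum_le_sum_of_subset_of_nonneg (filter_subset (fun e => L < tdeg G e) G)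
    fun f _ _ => sq_nonneg _)
  rw [← nsmul_eq_mul]
  refine card_nsmul_le_sum _ _ _ fun e he => ?_
  exact pow_le_pow_left₀ (Nat.cast_nonneg _) (by exact_mod_cast (mem_filter.1 he).2.le) 2

/-- A large threshold makes every fixed neighbourhood of the heavy edges negligible. -/
lemma exists_threshold (K : ℝ) (hK : 0 < K) (L₀ : ℕ) : ∀ (j : ℕ) (η : ℝ), 0 < η →
    ∃ L, L₀ ≤ L ∧ ∀ (n : ℕ) (G : Finset (Sym2 (Fin n))), SqBound n K G →
      ((bad G L j).card : ℝ) ≤ η * G.card
  | 0, η, hη => by
    refine ⟨max (L₀ + 1) ⌈K / η⌉₊, (Nat.le_succ _).trans (le_max_left _ _), fun n G hQ => ?_⟩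
    set L := max (L₀ + 1) ⌈K / η⌉₊
    have h1 : (1 : ℝ) ≤ L := by exact_mod_cast (Nat.le_add_left 1 L₀).trans (le_max_left _ _)
    have h2 : K ≤ η * (L : ℝ) ^ 2 := by
      have : K / η ≤ L := (Nat.le_ceil _).trans (by exact_mod_cast le_max_right _ _)
      rw [div_le_iff₀ hη] at this
      nlinarith
    have h3 := card_heavy hQ L
    have hE : (0 : ℝ) ≤ G.card := Nat.cast_nonneg _
    show ((G.filter fun e => L < tdeg G e).card : ℝ) ≤ η * G.card
    refine le_of_mul_le_mul_right (h3.trans ?_) (show (0 : ℝ) < (L : ℝ) ^ 2 by positivity)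
    nlinarith
  | (j + 1), η, hη => by
    set t := 6 * K / η with ht
    have ht0 : 0 < t := by positivity
    obtain ⟨L, hL, h⟩ := exists_threshold K hK L₀ j (η / (2 * (1 + 3 * t))) (by positivity)
    refine ⟨L, hL, fun n G hQ => ?_⟩
    have h1 := h n G hQ
    have h2 : ((bad G L (j + 1)).card : ℝ)
        ≤ (bad G L j).card + 3 * ∑ f ∈ bad G L j, (tdeg G f : ℝ) := by
      exact_mod_cast card_touch (G := G) (bad G L j)
    have h3 := sum_le_sq hQ (bad_subset L j) ht0
    have e : K * (G.card : ℝ) / t = η / 6 * G.card := by rw [ht]; field_simp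
    have h4 : (1 + 3 * t) * ((bad G L j).card : ℝ) ≤ η / 2 * G.card := by
      refine (mul_le_mul_of_nonneg_left h1 (by positivity)).trans (le_of_eq ?_)
      field_simp
    nlinarith

/-- The good edges away from heavy edges. -/
noncomputable def goodSet (G : Finset (Sym2 (Fin n))) (L L₀ : ℕ) : Finset (Sym2 (Fin n)) :=
  G.filter fun e => e ∉ bad G L 2 ∧ tdeg G e ≤ L₀ ∧ Good G e

/-- The starting edges. -/
noncomputable def startSet (G : Finset (Sym2 (Fin n))) (L a : ℕ) : Finset (Sym2 (Fin n)) :=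
  G.filter fun e => e ∉ bad G L (a + 2) ∧ 2 ≤ tdeg G e ∧ tdeg G e ≤ a

lemma card_start_le (L L₀ : ℕ) : ∀ a, a ≤ L₀ →
    (startSet G L a).card ≤ (6 * L₀ + 2) ^ a * (goodSet G L L₀).card
  | 0, _ => by
    have : startSet G L 0 = ∅ := by
      rw [startSet, filter_eq_empty_iff]
      intro e _
      omega
    simp [this]
  | (a + 1), ha => by
    have ih := card_start_le L L₀ a (by omega)
    set Gd := goodSet G L L₀ with hGd
    set src := startSet G L a ∪ Gd with hsrc
    have hsub : startSet G L (a + 1) ⊆ Gd ∪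
        src.biUnion fun f => ((triangles G).filter fun T => f ∈ edgesOf T).biUnion edgesOf := by
      intro e he
      obtain ⟨heG, hbad, h2, hle⟩ := mem_filter.1 he
      by_cases hg : Good G e
      · exact mem_union_left _ (mem_filter.2
          ⟨heG, fun h => hbad (bad_mono L (by omega) h), by omega, hg⟩)
      simp only [Good, not_forall, not_le] at hg
      obtain ⟨T, hT, heT, hlt⟩ := hg
      obtain ⟨f, hf, hfe, hfd⟩ : ∃ f ∈ edgesOf T, f ≠ e ∧ tdeg G f < tdeg G e := by
        by_contra hc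
        push Not at hc
        have hc' : ∀ f ∈ edgesOf T, tdeg G e ≤ tdeg G f := fun f hf => by
          by_cases h : f = e
          · rw [h]
          · exact hc f hf h
        have : (edgesOf T).card • tdeg G e ≤ ∑ f ∈ edgesOf T, tdeg G f :=
          card_nsmul_le_sum _ _ _ hc'
        rw [card_edgesOf hT, smul_eq_mul] at this
        omega
      have hfb : f ∉ bad G L (a + 2) := not_bad_of hT heT hf hbad
      have hfG : f ∈ G := (mem_tri.1 hT).2 hf
      have hmem : f ∈ src := by
        by_cases h : 2 ≤ tdeg G f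
        · exact mem_union_left _ (mem_filter.2 ⟨hfG, hfb, h, by omega⟩)
        · have hf1 : tdeg G f = 1 := by have := one_le_tdeg hT hf; omega
          refine mem_union_right _ (mem_filter.2
            ⟨hfG, fun hh => hfb (bad_mono L (by omega) hh), by omega, fun T' hT' hfT' => ?_⟩)
          obtain ⟨z, hz⟩ := card_eq_one.1 hf1
          have hT1 : T' ∈ (triangles G).filter fun S => f ∈ edgesOf S := mem_filter.2 ⟨hT', hfT'⟩
          have hT2 : T ∈ (triangles G).filter fun S => f ∈ edgesOf S := mem_filter.2 ⟨hT, hf⟩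
          rw [hz, mem_singleton] at hT1 hT2
          subst hT1 hT2
          have hge : ∑ g ∈ edgesOf T, (if g = e then 2 else 1) ≤ ∑ g ∈ edgesOf T, tdeg G g :=
            sum_le_sum fun g hg => by
              split_ifs with hge
              · subst hge; exact h2
              · exact one_le_tdeg hT hg
          have hval : ∑ g ∈ edgesOf T, (if g = e then (2 : ℕ) else 1) = 4 := by
            rw [← add_sum_erase _ _ heT, if_pos rfl,
              sum_congr rfl fun g hg => if_neg (mem_erase.1 hg).1, sum_const, smul_eq_mul,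
              card_erase_of_mem heT, card_edgesOf hT]
          omega
      exact mem_union_right _ (mem_biUnion.2
        ⟨f, hmem, mem_biUnion.2 ⟨T, mem_filter.2 ⟨hT, hf⟩, heT⟩⟩)
    have hdeg : ∑ f ∈ src, tdeg G f ≤ src.card * L₀ := by
      refine (sum_le_card_nsmul _ _ L₀ fun f hf => ?_).trans_eq (smul_eq_mul _ _)
      rcases mem_union.1 hf with h | h
      · have := (mem_filter.1 h).2.2.2; omega
      · exact (mem_filter.1 h).2.2.1
    have h1 := (card_le_card hsub).trans ((card_union_le _ _).trans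
      (Nat.add_le_add_left (card_partners src) _))
    have h2 : src.card ≤ (startSet G L a).card + Gd.card := card_union_le _ _
    have h3 : 1 ≤ (6 * L₀ + 2) ^ a := Nat.one_le_pow _ _ (by omega)
    have h4 : Gd.card ≤ (6 * L₀ + 2) ^ a * Gd.card := Nat.le_mul_of_pos_left _ h3
    rw [pow_succ]
    nlinarith [Nat.mul_le_mul_left L₀ h2]

/-- The number of triangles that can compete with the killers. -/
def rivalBound (L : ℕ) : ℕ := 3 * killBound L * L + L + 1

lemma good_survives (hG : G ⊆ completeEdges n) {L L₀ : ℕ} (hL : L₀ ≤ L) {e : Sym2 (Fin n)}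
    (he : e ∈ goodSet G L L₀) :
    (1 / (rivalBound L : ℝ)) ^ killBound L ≤ Ev (present e) G := by
  obtain ⟨heG, hbad, hd, hgood⟩ := mem_filter.1 he
  induction e using Sym2.ind with
  | _ u v =>
  have huv := ne_of_adj hG heG
  have hdL : (cnb G u v).card ≤ L := by rw [← tdeg_eq hG heG]; omega
  have htri : ∀ w ∈ cnb G u v, ({u, v, w} : Finset (Fin n)) ∈ triangles G := fun w hw =>
    tri_of_adj hG heG (mem_cnb.1 hw).1 (mem_cnb.1 hw).2
  have hgood' : ∀ w ∈ cnb G u v,
      (cnb G u v).card + 2 ≤ (cnb G u w).card + (cnb G v w).card := by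
    intro w hw
    obtain ⟨h1, h2⟩ := mem_cnb.1 hw
    have e1 := ne_of_adj hG h1
    have e2 := ne_of_adj hG h2
    have h := hgood _ (htri w hw) (mem_edgesOf.2 ⟨by simp, by simp, huv⟩)
    rw [edgesOf_triple huv e1 e2, sum_insert (by simp; grind), sum_pair (by simp; grind),
      tdeg_eq hG heG, tdeg_eq hG h1, tdeg_eq hG h2] at h
    omega
  obtain ⟨R, hR, hRc, hRside⟩ := exists_killers hG heG hgood' hdL
  have hlight : ∀ r ∈ R, ∀ g ∈ edgesOf r, tdeg G g ≤ L := by
    intro r hr g hg
    obtain ⟨w, hw, hside⟩ := hRside r hr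
    have hT := htri w hw
    have hfin : ∀ f ∈ edgesOf ({u, v, w} : Finset (Fin n)), f ∈ edgesOf r → tdeg G g ≤ L := by
      intro f hf hfr
      have h1 : f ∉ bad G L 1 :=
        not_bad_of hT (mem_edgesOf.2 ⟨by simp, by simp, huv⟩) hf hbad
      have h0 : g ∉ bad G L 0 := not_bad_of (hR.sub hr) hfr hg h1
      by_contra hc
      exact h0 (mem_filter.2 ⟨(mem_tri.1 (hR.sub hr)).2 hg, by omega⟩)
    obtain ⟨h1, h2⟩ := mem_cnb.1 hw
    rcases hside with h | h
    · exact hfin _ (mem_edgesOf.2 ⟨by simp, by simp, ne_of_adj hG h1⟩) h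
    · exact hfin _ (mem_edgesOf.2 ⟨by simp, by simp, ne_of_adj hG h2⟩) h
  have hN : (rivals G s(u, v) R).card ≤ rivalBound L := by
    have hsub : rivals G s(u, v) R ⊆ ((triangles G).filter fun T => s(u, v) ∈ edgesOf T) ∪
        (R.biUnion fun r => (edgesOf r).biUnion fun g =>
          (triangles G).filter fun T => g ∈ edgesOf T) := by
      intro T hT
      obtain ⟨hT1, hT2⟩ := mem_filter.1 hT
      rcases hT2 with h | ⟨r, hr, h⟩
      · exact mem_union_left _ (mem_filter.2 ⟨hT1, h⟩)
      · obtain ⟨g, hg, hg'⟩ := not_disjoint_iff.1 h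
        exact mem_union_right _ (mem_biUnion.2 ⟨r, hr, mem_biUnion.2 ⟨g, hg', mem_filter.2 ⟨hT1, hg⟩⟩⟩)
    refine (card_le_card hsub).trans ((card_union_le _ _).trans ?_)
    have hb : (R.biUnion fun r => (edgesOf r).biUnion fun g =>
        (triangles G).filter fun T => g ∈ edgesOf T).card ≤ R.card * (3 * L) := by
      refine (card_biUnion_le_card_mul _ _ _ fun r hr => ?_)
      refine (card_biUnion_le_card_mul _ _ L fun g hg => hlight r hr g hg).trans ?_
      rw [card_edgesOf (hR.sub hr)]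
    have : R.card * (3 * L) ≤ killBound L * (3 * L) := Nat.mul_le_mul_right _ hRc
    have hd' : tdeg G s(u, v) ≤ L := by omega
    unfold tdeg at hd'
    unfold rivalBound
    nlinarith
  refine le_trans ?_ (surv_lower (rivalBound L) (Nat.succ_pos _) hR hN)
  refine pow_le_pow_of_le_one (by positivity) ?_ hRc
  rw [div_le_one (by exact_mod_cast Nat.succ_pos _)]
  exact_mod_cast Nat.succ_le_of_lt (Nat.succ_pos _)

/-- **The lower half.** From a graph with at least two thirds of a triangle per edge and bounded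
mean squared codegree, a positive fraction of the edges is left. -/
theorem exists_lower_const (K : ℝ) : ∃ c : ℝ, 0 < c ∧ ∀ (n : ℕ) (G : Finset (Sym2 (Fin n))),
    G ⊆ completeEdges n → 2 * G.card ≤ 3 * (triangles G).card →
      ∑ e ∈ G, (tdeg G e : ℝ) ^ 2 ≤ K * G.card →
      c * G.card ≤ Ev (fun H => (H.card : ℝ)) G := by
  wlog hK : 1 ≤ K generalizing K
  · obtain ⟨c, hc, h⟩ := this 1 le_rfl
    exact ⟨c, hc, fun n G h1 h2 h3 => h n G h1 h2
      (h3.trans (mul_le_mul_of_nonneg_right (le_of_not_ge hK) (Nat.cast_nonneg _)))⟩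
  set L₀ := ⌈4 * K⌉₊ with hL₀
  obtain ⟨L, hL, hthr⟩ :=
    exists_threshold K (by linarith) L₀ (L₀ + 2) (1 / (16 * K)) (by positivity)
  refine ⟨(1 / (rivalBound L : ℝ)) ^ killBound L / (8 * K * ((6 * L₀ + 2 : ℕ) : ℝ) ^ L₀),
    by have : (0 : ℝ) < rivalBound L := by exact_mod_cast Nat.succ_pos _
       positivity, fun n G hG hT hQ => ?_⟩
  set E : ℝ := (G.card : ℝ) with hE
  set S := G.filter fun e => 2 ≤ tdeg G e with hS
  -- many edges have codegree at least two
  have hES : E ≤ ∑ f ∈ S, (tdeg G f : ℝ) := by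
    have h1 := sum_filter_add_sum_filter_not G (fun e => 2 ≤ tdeg G e) fun e => tdeg G e
    have h2 : ∑ e ∈ G.filter (fun e => ¬ 2 ≤ tdeg G e), tdeg G e ≤ G.card := by
      refine (sum_le_card_nsmul _ _ 1 fun f hf => by
        have := (mem_filter.1 hf).2; omega).trans ?_
      rw [smul_eq_mul, mul_one]
      exact card_le_card (filter_subset _ _)
    rw [sum_tdeg, ← hS] at h1
    have : G.card ≤ ∑ f ∈ S, tdeg G f := by omega
    rw [hE]
    exact_mod_cast this
  have hS1 : E / (4 * K) ≤ S.card := by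
    have h := hES.trans (sum_le_sq hQ (filter_subset _ _) (show (0 : ℝ) < 2 * K by linarith))
    rw [div_le_iff₀ (by positivity)]
    have : K * E / (2 * K) = E / 2 := by field_simp
    nlinarith
  have hH : ((G.filter fun e => L₀ < tdeg G e).card : ℝ) ≤ E / (16 * K) := by
    have h := card_heavy hQ L₀
    have h4 : 4 * K ≤ (L₀ : ℝ) := Nat.le_ceil _
    rw [le_div_iff₀ (by positivity)]
    refine le_of_mul_le_mul_right ?_ (show (0 : ℝ) < (L₀ : ℝ) ^ 2 by positivity)
    calc _ = ((G.filter fun e => L₀ < tdeg G e).card : ℝ) * (L₀ : ℝ) ^ 2 * (16 * K) := by ring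
      _ ≤ K * E * (16 * K) := mul_le_mul_of_nonneg_right h (by positivity)
      _ = E * (4 * K) ^ 2 := by ring
      _ ≤ E * (L₀ : ℝ) ^ 2 := by gcongr
  have hB := hthr n G hQ
  have hsplit : S.card ≤ (startSet G L L₀).card +
      ((G.filter fun e => L₀ < tdeg G e).card + (bad G L (L₀ + 2)).card) := by
    refine (card_le_card (t := startSet G L L₀ ∪ ((G.filter fun e => L₀ < tdeg G e) ∪
      bad G L (L₀ + 2))) fun e he => ?_).trans
      ((card_union_le _ _).trans (Nat.add_le_add_left (card_union_le _ _) _))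
    obtain ⟨heG, he2⟩ := mem_filter.1 he
    simp only [mem_union, startSet, mem_filter]
    by_cases hb : e ∈ bad G L (L₀ + 2)
    · exact Or.inr (Or.inr hb)
    by_cases hh : L₀ < tdeg G e
    · exact Or.inr (Or.inl ⟨heG, hh⟩)
    · exact Or.inl ⟨heG, hb, he2, by omega⟩
  have hW : E / (8 * K) ≤ ((6 * L₀ + 2 : ℕ) : ℝ) ^ L₀ * (goodSet G L L₀).card := by
    have h1 : ((startSet G L L₀).card : ℝ)
        ≤ ((6 * L₀ + 2 : ℕ) : ℝ) ^ L₀ * (goodSet G L L₀).card := by
      exact_mod_cast card_start_le (G := G) L L₀ L₀ le_rfl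
    have h2 : (S.card : ℝ) ≤ (startSet G L L₀).card +
        ((G.filter fun e => L₀ < tdeg G e).card + (bad G L (L₀ + 2)).card) := by
      exact_mod_cast hsplit
    have h3 : E / (4 * K) = E / (16 * K) + 1 / (16 * K) * E + E / (8 * K) := by field_simp; ring
    linarith
  have hsum : (goodSet G L L₀).card * (1 / (rivalBound L : ℝ)) ^ killBound L
      ≤ Ev (fun H => (H.card : ℝ)) G := by
    calc ((goodSet G L L₀).card : ℝ) * (1 / (rivalBound L : ℝ)) ^ killBound L
        ≤ ∑ e ∈ goodSet G L L₀, Ev (present e) G := by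
          rw [← nsmul_eq_mul]
          exact card_nsmul_le_sum _ _ _ fun e he => good_survives hG hL he
      _ = Ev (fun H => ∑ e ∈ goodSet G L L₀, present e H) G := (Ev_sum _ _ _).symm
      _ ≤ _ := Ev_mono (fun H => by
          simp only [present, sum_boole, Nat.cast_le]
          exact card_le_card fun e he => (mem_filter.1 he).2) G
  refine le_trans ?_ hsum
  have hp : (0 : ℝ) ≤ (1 / (rivalBound L : ℝ)) ^ killBound L := by positivity
  rw [div_mul_eq_mul_div, div_le_iff₀ (by positivity)]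
  have := mul_le_mul_of_nonneg_left hW hp
  rw [mul_div_assoc', div_le_iff₀ (by positivity)] at this
  linarith

end Vale.Agent.P046
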